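import Crest.Agent.X212.Srf12.Sph
import Crest.Agent.X212.Prd34.Main
import Crest.Agent.X212.Geo46.Main
import Crest.Agent.X212.Srf12.Main
import Crest.Agent.X212.Top0.S
import Crest.Agent.X212.Eq82.Main
import Crest.Agent.X212.Tan54.Hc
import Crest.Agent.X212.Lad50.Nd
import Crest.Agent.X212.Top68.Lnk
import Crest.Agent.X212.Top68.Main
import Crest.Agent.X212.Pj41.Can2
import Crest.Agent.X212.Idg99.Sq
import Crest.Agent.X212.Taub88.Fin
import Crest.Agent.X212.Top0.Nv
import Crest.Agent.X212.Lat93.Main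
import Crest.Agent.X212.Brn93.Cls
import Crest.Agent.X212.Lat93.Nv
import Crest.Agent.X212.Lat93.Root
import Crest.Agent.X212.Brn93.Main
import Crest.Agent.X212.Dr59.NbH
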